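import Vale.Agent.P200c.Shift

/-!
Boundary ranks of monomial ideals containing squares, and their comparison with lex segments.
-/

noncomputable section

namespace Vale.Agent.P200c

open MvPolynomial Vale.Agent.P200b
open scoped Classical

variable {K : Type*} [Field K] {n c : ℕ}

/-- The exponents of an upper set in a degree outside the squares. -/
def famOf (c e : ℕ) (U : Set (Fin n →₀ ℕ)) : Finset (Fin n →₀ ℕ) :=
  (Vale.Agent.P200.degSet n e).filter fun a => a ∈ U ∧ ¬ sqP c a

theorem mem_famOf {e : ℕ} {U : Set (Fin n →₀ ℕ)} {a : Fin n →₀ ℕ} :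
    a ∈ famOf c e U ↔ a.degree = e ∧ a ∈ U ∧ ¬ sqP c a := by
  simp [famOf, Vale.Agent.P200.mem_degSet]

theorem proj_apply (φ : Finset (Fin n) → MvPolynomial (Fin n) K) (T : Finset (Fin n))
    (a : Fin n →₀ ℕ) : proj K c φ (T, a) = if sqP c a then 0 else coeff a (φ T) := by
  conv_lhs => rw [chain_eq_sum φ]
  simp only [map_sum, proj_single, Finsupp.finsetSum_apply, Finsupp.smul_apply]
  rw [Finset.sum_eq_single T, Finset.sum_eq_single a]
  · by_cases h : sqP c a
    · simp [one_sq T h, h]
    · simp [one_of_not T h, h]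
  · intro b _ hb
    by_cases h : sqP c b
    · simp [one_sq T h]
    · rw [one_of_not T h, Finsupp.single_eq_of_ne (fun h' => hb (congrArg Prod.snd h').symm),
        smul_zero]
  · intro h
    rw [notMem_support_iff.1 h, zero_smul]
  · intro T' _ hT'
    refine Finset.sum_eq_zero fun b _ => ?_
    by_cases h : sqP c b
    · simp [one_sq T' h]
    · rw [one_of_not T' h, Finsupp.single_eq_of_ne (fun h' => hT' (congrArg Prod.fst h').symm),
        smul_zero]
  · simp

theorem finrank_boundaries (U : Set (Fin n →₀ ℕ)) (hU : ∀ a ∈ U, ∀ b, a ≤ b → b ∈ U)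
    (hPU : ∀ a, sqP c a → a ∈ U) {p j : ℕ} (hpj : p ≤ j) :
    Module.finrank K (boundaries (Ideal.span ((fun a => monomial a (1 : K)) '' U)) p j) =
      bR K c p (j - p) (famOf c (j - p) U) +
        Module.finrank K (chains (⊤ : Ideal (MvPolynomial (Fin n) K)) p j ⊓
          LinearMap.ker (proj K c) : Submodule K _) := by
  set JU := Ideal.span ((fun a => monomial a (1 : K)) '' U)
  set e := j - p
  have : Module.Finite K (boundaries JU p j) :=
    Submodule.finiteDimensional_of_le (boundaries_le JU p j)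
  have hmemJU : ∀ {q : MvPolynomial (Fin n) K}, q ∈ JU ↔ ∀ a ∈ q.support, a ∈ U := by
    intro q
    rw [mem_ideal_span_monomial_image]
    exact ⟨fun h a ha => let ⟨s, hs, hsa⟩ := h a ha; hU s hs a hsa,
      fun h a ha => ⟨a, h a ha, le_rfl⟩⟩
  have hrange : (boundaries JU p j).map (proj K c) =
      Submodule.span K (genF K c p e (famOf c e U)) := by
    apply le_antisymm
    · rw [boundaries, Submodule.map_sup]
      refine sup_le ?_ ?_
      · rintro _ ⟨φ, hφ, rfl⟩
        rw [chain_eq_sum φ]
        simp only [map_sum]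
        refine Submodule.sum_mem _ fun T _ => Submodule.sum_mem _ fun a ha => ?_
        rw [proj_single]
        refine Submodule.smul_mem _ _ ?_
        have hT : T.card = p ∧ p ≤ j := by
          by_contra h
          rw [(mem_chains.1 hφ T).2 h] at ha
          simp at ha
        obtain ⟨hI, hh⟩ := (mem_chains.1 hφ T).1 hT
        by_cases hP : sqP c a
        · rw [one_sq T hP]; exact zero_mem _
        refine Submodule.subset_span (Or.inl ⟨T, a, hT.1, mem_famOf.2 ⟨?_, hmemJU.1 hI a ha, hP⟩, rfl⟩)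
        rw [Finsupp.degree_eq_weight_one]
        exact hh (mem_support_iff.1 ha)
      · rintro _ ⟨_, ⟨φ, hφ, rfl⟩, rfl⟩
        rw [← dd_proj, chain_eq_sum φ]
        simp only [map_sum]
        refine Submodule.sum_mem _ fun S _ => Submodule.sum_mem _ fun a ha => ?_
        rw [proj_single, map_smul]
        refine Submodule.smul_mem _ _ ?_
        have hS : S.card = p + 1 ∧ p + 1 ≤ j := by
          by_contra h
          rw [(mem_chains.1 hφ S).2 h] at ha
          simp at ha
        refine Submodule.subset_span (Or.inr ⟨S, a, hS.1, ?_, rfl⟩)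
        have : a.degree = j - (p + 1) := by
          rw [Finsupp.degree_eq_weight_one]
          exact ((mem_chains.1 hφ S).1 hS).2 (mem_support_iff.1 ha)
        have := hS.2
        omega
    · refine Submodule.span_le.2 ?_
      rintro _ (⟨T, a, hT, ha, rfl⟩ | ⟨S, a, hS, ha, rfl⟩)
      · obtain ⟨hd, haU, -⟩ := mem_famOf.1 ha
        refine ⟨Pi.single T (monomial a 1), Submodule.mem_sup_left (mem_chains.2 fun T' => ?_),
          by rw [proj_single, one_smul]⟩
        by_cases h : T' = T
        · subst h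
          rw [Pi.single_eq_same]
          exact ⟨fun _ => ⟨Ideal.subset_span ⟨a, haU, rfl⟩, isHomogeneous_monomial _ hd⟩,
            fun h' => absurd ⟨hT, hpj⟩ h'⟩
        · rw [Pi.single_eq_of_ne h]
          exact ⟨fun _ => ⟨zero_mem _, isHomogeneous_zero _ _ _⟩, fun _ => rfl⟩
      · refine ⟨koszul (Pi.single S (monomial a 1)), Submodule.mem_sup_right
          (Submodule.mem_map_of_mem (mem_chains.2 fun T' => ?_)),
          by rw [← dd_proj, proj_single, one_smul]⟩
        by_cases h : T' = S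
        · subst h
          rw [Pi.single_eq_same]
          exact ⟨fun _ => ⟨Submodule.mem_top, isHomogeneous_monomial _ (by omega)⟩,
            fun h' => absurd ⟨hS, by omega⟩ h'⟩
        · rw [Pi.single_eq_of_ne h]
          exact ⟨fun _ => ⟨zero_mem _, isHomogeneous_zero _ _ _⟩, fun _ => rfl⟩
  have hker : boundaries JU p j ⊓ LinearMap.ker (proj K c) =
      chains ⊤ p j ⊓ LinearMap.ker (proj K c) := by
    refine le_antisymm (inf_le_inf_right _ (boundaries_le JU p j)) ?_
    rintro φ ⟨hφ, hk⟩
    refine ⟨Submodule.mem_sup_left (mem_chains.2 fun T => ⟨fun hT => ⟨hmemJU.2 fun a ha => ?_,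
      ((mem_chains.1 hφ T).1 hT).2⟩, (mem_chains.1 hφ T).2⟩), hk⟩
    apply hPU
    by_contra hP
    have h := DFunLike.congr_fun (LinearMap.mem_ker.1 hk) (T, a)
    rw [proj_apply, if_neg hP] at h
    exact mem_support_iff.1 ha h
  have h := LinearMap.finrank_range_add_finrank_ker ((proj K c).domRestrict (boundaries JU p j))
  rw [LinearMap.range_domRestrict, hrange, LinearMap.ker_domRestrict] at h
  rw [← h, bR, ← hker]
  congr 1
  refine (Submodule.equivMapOfInjective (boundaries JU p j).subtype (Submodule.injective_subtype _)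
    ((LinearMap.ker (proj K c)).comap (boundaries JU p j).subtype)).finrank_eq.trans ?_
  rw [Submodule.map_comap_subtype]

theorem card_covSet_add (c p e : ℕ) (A : Finset (Fin n →₀ ℕ))
    (hA : ∀ a ∈ A, a.degree = e ∧ ¬ sqP c a) :
    (covSet c p e A).card + ∑ a ∈ A, covN (capd c) p ⇑a =
      A.card * n.choose p +
        ∑ a ∈ (Vale.Agent.P200.degSet n e).filter (fun a => ¬ sqP c a), covN (capd c) p ⇑a := by
  set B := (Vale.Agent.P200.degSet n e).filter (fun a => ¬ sqP c a)
  have hAB : A ⊆ B := fun a ha =>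
    Finset.mem_filter.2 ⟨Vale.Agent.P200.mem_degSet.2 (hA a ha).1, (hA a ha).2⟩
  have h1 : (covSet c p e A).card =
      ∑ a ∈ B, if a ∈ A then n.choose p else covN (capd c) p ⇑a := by
    unfold covSet rows
    rw [Finset.card_filter, Finset.sum_product_right]
    refine Finset.sum_congr (by ext a; simp [B]) fun a _ => ?_
    rw [← Finset.card_filter]
    split_ifs with h
    · simp [h]
    · unfold covN
      congr 1
      ext T
      simp [h]
  rw [h1, Finset.sum_ite, Finset.sum_const, smul_eq_mul, Finset.filter_mem_eq_inter,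
    Finset.inter_eq_right.2 hAB, ← Finset.sum_sdiff hAB (f := fun a : Fin n →₀ ℕ => covN (capd c) p ⇑a),
    Finset.sdiff_eq_filter B A]
  ring

/-- Lex segments have the smallest boundary ranks. -/
theorem bR_seg_le {κ : Fin n → ℕ} (hκ : Monotone κ) (hcp : ∀ l, capd c l → κ l = 2) (p e : ℕ)
    (hbox : ∀ a : Fin n →₀ ℕ, ⇑a ∈ Vale.Agent.P200.CL.box κ e ↔ a.degree = e ∧ ¬ sqP c a)
    (A L : Finset (Fin n →₀ ℕ)) (hA : ∀ a ∈ A, a.degree = e ∧ ¬ sqP c a)
    (hL : ∀ a ∈ L, a.degree = e ∧ ¬ sqP c a)
    (hLseg : ∀ a ∈ L, ∀ b : Fin n →₀ ℕ, b.degree = e → ¬ sqP c b → toLex a < toLex b → b ∈ L)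
    (hc : A.card = L.card) : bR K c p e L ≤ bR K c p e A := by
  obtain ⟨B, hB, hBc, hBr, hBst⟩ := exists_stable (K := K) p e A hA
  refine le_trans ?_ hBr
  have hgt : ∀ {a b : Fin n →₀ ℕ}, Vale.Agent.P200.CL.gtL ⇑b ⇑a ↔ toLex a < toLex b := by
    intro a b
    rw [Vale.Agent.P200.CL.gtL_iff]
    exact Iff.rfl
  have hLst : StabF c L := by
    intro a ha i j hij b hb hbP
    have hd : b.degree = e := by
      have h := congrArg Finsupp.degree hb
      rw [map_add, map_add, Finsupp.degree_single, Finsupp.degree_single, (hL a ha).1] at h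
      omega
    refine hLseg a ha b hd hbP (Finsupp.Lex.lt_iff.2 ⟨i, fun l hl => ?_, ?_⟩)
    · have h := DFunLike.congr_fun hb l
      simp [hl.ne, (hl.trans hij).ne] at h
      exact h.symm
    · have h := DFunLike.congr_fun hb i
      simp [hij.ne] at h
      show a i < b i
      omega
  refine le_trans (bR_le_covSet c p e L hL hLst) (le_trans ?_ (covSet_le_bR c p e B))
  let emb : (Fin n →₀ ℕ) ↪ (Fin n → ℕ) := ⟨fun a => ⇑a, DFunLike.coe_injective⟩
  have hsurj : ∀ x : Fin n → ℕ, ∃ a : Fin n →₀ ℕ, ⇑a = x := fun x =>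
    ⟨Finsupp.equivFunOnFinite.symm x, Finsupp.coe_equivFunOnFinite_symm x⟩
  have hseg : Vale.Agent.P200.CL.IsSeg κ e (L.map emb) := by
    refine ⟨fun x hx => ?_, fun x hx y hy hyx => ?_⟩
    · obtain ⟨a, ha, rfl⟩ := Finset.mem_map.1 hx
      exact (hbox a).2 (hL a ha)
    · obtain ⟨a, ha, rfl⟩ := Finset.mem_map.1 hx
      obtain ⟨b, rfl⟩ := hsurj y
      exact Finset.mem_map.2 ⟨b, hLseg a ha b ((hbox b).1 hy).1 ((hbox b).1 hy).2 (hgt.1 hyx), rfl⟩
  have hst : Stab κ e (B.map emb) := by
    intro x hx i j hij hj hmem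
    obtain ⟨a, ha, rfl⟩ := Finset.mem_map.1 hx
    obtain ⟨b, hb⟩ := hsurj (mv ⇑a j i)
    have hj' : 0 < a j := hj
    refine Finset.mem_map.2 ⟨b, hBst a ha i j hij b ?_ ?_, hb⟩
    · ext l
      have h := congrFun hb l
      simp only [mv] at h
      rw [Finsupp.add_apply, Finsupp.add_apply, Finsupp.single_apply, Finsupp.single_apply]
      by_cases hi : l = i
      · subst hi; simp [hij.ne'] at h ⊢; omega
      · by_cases hjl : l = j
        · subst hjl; simp [hi, Ne.symm hi] at h ⊢; omega
        · simp [hi, hjl, Ne.symm hi, Ne.symm hjl] at h ⊢; omega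
    · refine ((hbox b).1 ?_).2
      rw [hb]
      exact hmem
  have hmax := sum_covN_le (capd c) hκ hcp p e (B.map emb) (L.map emb)
    (fun x hx => by
      obtain ⟨a, ha, rfl⟩ := Finset.mem_map.1 hx
      exact (hbox a).2 (hB a ha))
    hst hseg (by rw [Finset.card_map, Finset.card_map, hBc, hc])
  simp only [Finset.sum_map] at hmax
  change ∑ a ∈ B, covN (capd c) p ⇑a ≤ ∑ a ∈ L, covN (capd c) p ⇑a at hmax
  have h1 := card_covSet_add c p e L hL
  have h2 := card_covSet_add c p e B hB
  rw [hBc, hc] at h2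
  omega

end Vale.Agent.P200c
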