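import Vale.Agent.P200.Leading
import Vale.Agent.P200.Levels
import Vale.Agent.P200b.Bound
import Vale.Agent.P200c.Maximal

/-!
Boundary ranks of monomial ideals containing squares, in a single degree.
-/

noncomputable section

namespace Vale.Agent.P200c

open MvPolynomial Vale.Agent.P200b

variable {K : Type*} [Field K] {n : ℕ}

/-- The exponent lies in the squares of the first variables. -/
def sqP (c : ℕ) (a : Fin n →₀ ℕ) : Prop := ∃ i : Fin n, i.1 < c ∧ 2 ≤ a i

/-- The capped positions. -/
def capd (c : ℕ) (l : Fin n) : Prop := l.1 < c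

/-- Coordinates of chains modulo the squares. -/
abbrev CM (K : Type*) [Field K] (n : ℕ) : Type _ := (Finset (Fin n) × (Fin n →₀ ℕ)) →₀ K

/-- The class of a monomial chain. -/
def one (K : Type*) [Field K] (c : ℕ) (T : Finset (Fin n)) (a : Fin n →₀ ℕ) : CM K n := by
  classical exact if sqP c a then 0 else Finsupp.single (T, a) 1

theorem one_sq {c : ℕ} (T : Finset (Fin n)) {a : Fin n →₀ ℕ} (h : sqP c a) : one K c T a = 0 :=
  if_pos h

theorem one_of_not {c : ℕ} (T : Finset (Fin n)) {a : Fin n →₀ ℕ} (h : ¬ sqP c a) :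
    one K c T a = Finsupp.single (T, a) 1 := if_neg h

theorem sqP_mono {c : ℕ} {a b : Fin n →₀ ℕ} (h : a ≤ b) (ha : sqP c a) : sqP c b := by
  obtain ⟨i, hi, hai⟩ := ha
  exact ⟨i, hi, hai.trans (h i)⟩

theorem sqP_add {c : ℕ} {a : Fin n →₀ ℕ} (b : Fin n →₀ ℕ) (ha : sqP c a) : sqP c (a + b) :=
  sqP_mono le_self_add ha

theorem sqP_add_single {c : ℕ} {a : Fin n →₀ ℕ} {l : Fin n} (hl : l.1 < c) (h : 1 ≤ a l) :
    sqP c (a + Finsupp.single l 1) :=
  ⟨l, hl, by simp; omega⟩

/-- The differential on a monomial. -/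
def dd1 (K : Type*) [Field K] (c : ℕ) (x : Finset (Fin n) × (Fin n →₀ ℕ)) : CM K n :=
  ∑ i ∈ x.1, ((-1 : K) ^ epsX (x.1.erase i) i) • one K c (x.1.erase i) (x.2 + Finsupp.single i 1)

/-- The differential modulo the squares. -/
def dd (K : Type*) [Field K] (c : ℕ) : CM K n →ₗ[K] CM K n := Finsupp.linearCombination K (dd1 K c)

theorem dd_one (c : ℕ) (S : Finset (Fin n)) (a : Fin n →₀ ℕ) :
    dd K c (one K c S a) =
      ∑ i ∈ S, ((-1 : K) ^ epsX (S.erase i) i) • one K c (S.erase i) (a + Finsupp.single i 1) := by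
  by_cases h : sqP c a
  · rw [one_sq S h, map_zero]
    exact (Finset.sum_eq_zero fun i _ => by rw [one_sq _ (sqP_add _ h), smul_zero]).symm
  · rw [one_of_not S h, dd, Finsupp.linearCombination_single, one_smul, dd1]

/-- Classes of polynomial chains. -/
def proj (K : Type*) [Field K] (c : ℕ) :
    (Finset (Fin n) → MvPolynomial (Fin n) K) →ₗ[K] CM K n :=
  ∑ T, (Finsupp.linearCombination K (one K c T)) ∘ₗ
    ((basisMonomials (Fin n) K).repr.toLinearMap ∘ₗ LinearMap.proj T)

theorem proj_single (c : ℕ) (T : Finset (Fin n)) (a : Fin n →₀ ℕ) (r : K) :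
    proj K c (Pi.single T (monomial a r)) = r • one K c T a := by
  classical
  simp only [proj, LinearMap.sum_apply, LinearMap.comp_apply, LinearMap.proj_apply,
    LinearEquiv.coe_coe]
  rw [Finset.sum_eq_single T]
  · have e : (monomial a r : MvPolynomial (Fin n) K) = r • basisMonomials (Fin n) K a := by
      simp [smul_monomial]
    rw [Pi.single_eq_same, e, map_smul, Module.Basis.repr_self, map_smul,
      Finsupp.linearCombination_single, one_smul]
  · intro T' _ h
    rw [Pi.single_eq_of_ne h, map_zero, map_zero]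
  · simp

theorem chain_eq_sum (φ : Finset (Fin n) → MvPolynomial (Fin n) K) :
    φ = ∑ T, ∑ a ∈ (φ T).support, Pi.single T (monomial a (coeff a (φ T))) := by
  classical
  conv_lhs => rw [← Finset.univ_sum_single φ]
  refine Finset.sum_congr rfl fun T _ => ?_
  conv_lhs => rw [(φ T).as_sum]
  exact map_sum (AddMonoidHom.single (fun _ : Finset (Fin n) => MvPolynomial (Fin n) K) T) _ _

theorem dd_proj (c : ℕ) (φ : Finset (Fin n) → MvPolynomial (Fin n) K) :
    dd K c (proj K c φ) = proj K c (koszul φ) := by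
  rw [chain_eq_sum φ]
  simp only [map_sum]
  refine Finset.sum_congr rfl fun T _ => Finset.sum_congr rfl fun a _ => ?_
  rw [proj_single, map_smul, dd_one, koszul_single, map_sum, Finset.smul_sum]
  refine Finset.sum_congr rfl fun i _ => ?_
  have e : (-1 : MvPolynomial (Fin n) K) ^ epsX (T.erase i) i * X i * monomial a (coeff a (φ T)) =
      monomial (a + Finsupp.single i 1) ((-1) ^ epsX (T.erase i) i * coeff a (φ T)) := by
    rw [show (-1 : MvPolynomial (Fin n) K) = C (-1) by simp, ← map_pow, X, C_mul_monomial,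
      monomial_mul, mul_one, add_comm]
  rw [e, proj_single, smul_smul, mul_comm]

theorem dd_dd (c : ℕ) (S : Finset (Fin n)) (a : Fin n →₀ ℕ) :
    dd K c (dd K c (one K c S a)) = 0 := by
  have h : one K c S a = proj K c (Pi.single S (monomial a 1)) := by rw [proj_single, one_smul]
  rw [h, dd_proj, dd_proj, koszul_koszul, map_zero]

/-- Rows of a degree. -/
def rows (n c p e : ℕ) : Finset (Finset (Fin n) × (Fin n →₀ ℕ)) := by
  classical
  exact (Finset.univ.powersetCard p) ×ˢ ((Vale.Agent.P200.degSet n e).filter fun a => ¬ sqP c a)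

theorem mem_rows {c p e : ℕ} {x : Finset (Fin n) × (Fin n →₀ ℕ)} :
    x ∈ rows n c p e ↔ x.1.card = p ∧ x.2.degree = e ∧ ¬ sqP c x.2 := by
  simp [rows, Vale.Agent.P200.mem_degSet]

/-- Generators of the boundaries in a degree. -/
def genF (K : Type*) [Field K] (c p e : ℕ) (A : Finset (Fin n →₀ ℕ)) : Set (CM K n) :=
  {v | (∃ T a, T.card = p ∧ a ∈ A ∧ one K c T a = v) ∨
    ∃ S a, S.card = p + 1 ∧ a.degree + 1 = e ∧ dd K c (one K c S a) = v}

theorem genF_finite (c p e : ℕ) (A : Finset (Fin n →₀ ℕ)) : (genF K c p e A).Finite := by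
  classical
  refine Set.Finite.subset ((((Finset.univ.powersetCard p) ×ˢ A).image
      fun x => one K c x.1 x.2) ∪ (((Finset.univ.powersetCard (p + 1)) ×ˢ
        (Vale.Agent.P200.degSet n (e - 1))).image
      fun x => dd K c (one K c x.1 x.2))).finite_toSet ?_
  rintro v (⟨T, a, hT, ha, rfl⟩ | ⟨S, a, hS, ha, rfl⟩)
  · simp only [Finset.coe_union, Set.mem_union, Finset.coe_image]
    exact Or.inl ⟨(T, a), by simp [hT, ha], rfl⟩
  · simp only [Finset.coe_union, Set.mem_union, Finset.coe_image]
    exact Or.inr ⟨(S, a), by simp [hS, Vale.Agent.P200.mem_degSet]; omega, rfl⟩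

/-- The boundary rank. -/
def bR (K : Type*) [Field K] (c p e : ℕ) (A : Finset (Fin n →₀ ℕ)) : ℕ :=
  Module.finrank K (Submodule.span K (genF K c p e A))

/-- Positions of pivots of canonical boundaries. -/
def covSet (c p e : ℕ) (A : Finset (Fin n →₀ ℕ)) : Finset (Finset (Fin n) × (Fin n →₀ ℕ)) := by
  classical exact (rows n c p e).filter fun x => x.2 ∈ A ∨ Cov (capd c) (⇑x.2) x.1

/-- Rank of leading parts. -/
theorem lead_le {ι κ Γ : Type*} [Finite κ] [LinearOrder Γ] (wt : ι → Γ) (grade : κ → Γ)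
    (w v : κ → ι →₀ K) (hw : ∀ k i, wt i ≠ grade k → w k i = 0)
    (hlead : ∀ k i, wt i ≤ grade k → v k i = w k i) (V : Submodule K (ι →₀ K))
    [Module.Finite K V] (hv : ∀ k, v k ∈ V) :
    Module.finrank K (Submodule.span K (Set.range w)) ≤ Module.finrank K V := by
  classical
  obtain ⟨κ', a, ha, hsp, hli⟩ := exists_linearIndependent' K w
  have : Finite κ' := Finite.of_injective a ha
  have : Fintype κ' := Fintype.ofFinite κ'
  rw [← hsp, finrank_span_eq_card hli]
  suffices hv' : LinearIndependent K (fun k => v (a k)) by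
    rw [← finrank_span_eq_card hv']
    exact Submodule.finrank_mono (Submodule.span_le.2 (by rintro _ ⟨k, rfl⟩; exact hv _))
  rw [Fintype.linearIndependent_iff]
  intro g hg
  by_contra hne
  push Not at hne
  obtain ⟨k0, hk0, hmin⟩ := Finset.exists_min_image
    (Finset.univ.filter fun k : κ' => g k ≠ 0) (fun k => grade (a k))
    (by obtain ⟨k, hk⟩ := hne; exact ⟨k, by simpa using hk⟩)
  simp only [Finset.mem_filter, Finset.mem_univ, true_and] at hk0 hmin
  have hLI := Fintype.linearIndependent_iff.1 hli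
    (fun k => if grade (a k) = grade (a k0) then g k else 0) ?_ k0
  · rw [if_pos rfl] at hLI
    exact hk0 hLI
  ext i
  have hi' := DFunLike.congr_fun hg i
  simp only [Finsupp.finsetSum_apply, Finsupp.smul_apply, smul_eq_mul, Finsupp.zero_apply,
    Function.comp_apply] at hi' ⊢
  by_cases hi : wt i = grade (a k0)
  · refine Eq.trans (Finset.sum_congr rfl fun k _ => ?_) hi'
    by_cases hgk : g k = 0
    · simp [hgk]
    · rw [hlead (a k) i (hi ▸ hmin k hgk)]
      by_cases hgr : grade (a k) = grade (a k0)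
      · rw [if_pos hgr]
      · rw [hw (a k) i (fun h' => hgr (h'.symm.trans hi)), mul_zero, mul_zero]
  · refine Finset.sum_eq_zero fun k _ => ?_
    by_cases hgr : grade (a k) = grade (a k0)
    · rw [hw (a k) i (fun h' => hi (h'.trans hgr)), mul_zero]
    · rw [if_neg hgr, zero_mul]

theorem span_single_card (s : Finset (Finset (Fin n) × (Fin n →₀ ℕ))) :
    Module.finrank K (Submodule.span K (Set.range fun x : {x // x ∈ s} =>
      (Finsupp.single x.1 1 : CM K n))) = s.card := by
  refine (finrank_span_eq_card (b := fun x : {x // x ∈ s} => (Finsupp.single x.1 1 : CM K n))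
    ((Finsupp.linearIndependent_single_one K (Finset (Fin n) × (Fin n →₀ ℕ))).comp _
      Subtype.val_injective)).trans ?_
  simp

/-- Canonical boundary vectors. -/
theorem cov_vector {c p e : ℕ} {T : Finset (Fin n)} {a : Fin n →₀ ℕ} (hT : T.card = p)
    (ha : a.degree = e) {k : Fin n} (hk : k ∉ T) (hak : 0 < a k) :
    (insert k T).card = p + 1 ∧ (a - Finsupp.single k 1).degree + 1 = e ∧
      (dd K c (one K c (insert k T) (a - Finsupp.single k 1))) =
        ((-1 : K) ^ epsX T k) • one K c T a + ∑ l ∈ T, ((-1 : K) ^ epsX ((insert k T).erase l) l) •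
          one K c ((insert k T).erase l) (a - Finsupp.single k 1 + Finsupp.single l 1) := by
  have hle : Finsupp.single k 1 ≤ a := Finsupp.single_le_iff.2 hak
  have he : a - Finsupp.single k 1 + Finsupp.single k 1 = a := tsub_add_cancel_of_le hle
  refine ⟨by rw [Finset.card_insert_of_notMem hk, hT], ?_, ?_⟩
  · rw [← ha]
    conv_rhs => rw [← he]
    rw [map_add, Finsupp.degree_single]
  · rw [dd_one, Finset.sum_insert hk, Finset.erase_insert hk, he]

theorem tail_zero {c : ℕ} {T : Finset (Fin n)} {a : Fin n →₀ ℕ} {k l : Fin n}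
    (hk : ∀ l, k < l → (l ∈ T → capd c l ∧ a l = 1) ∧ (l ∉ T → a l = 0)) (hl : l ∈ T)
    (hkl : k < l) : sqP c (a - Finsupp.single k 1 + Finsupp.single l 1) := by
  refine sqP_add_single ((hk l hkl).1 hl).1 ?_
  rw [Finsupp.tsub_apply, Finsupp.single_eq_of_ne hkl.ne', ((hk l hkl).1 hl).2]
  omega

theorem covSet_le_bR (c p e : ℕ) (A : Finset (Fin n →₀ ℕ)) :
    (covSet c p e A).card ≤ bR K c p e A := by
  classical
  have : Module.Finite K (Submodule.span K (genF K c p e A)) :=
    Module.Finite.span_of_finite K (genF_finite c p e A)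
  rw [← span_single_card (K := K), bR]
  have hex : ∀ x : {x // x ∈ covSet c p e A}, ∃ v ∈ Submodule.span K (genF K c p e A),
      ∀ y : Finset (Fin n) × (Fin n →₀ ℕ), Vale.Agent.P200.bw y.1 ≤ Vale.Agent.P200.bw x.1.1 →
        v y = (Finsupp.single x.1 (1 : K)) y := by
    rintro ⟨⟨T, a⟩, hx⟩
    obtain ⟨hrow, hA⟩ := Finset.mem_filter.1 hx
    obtain ⟨hT, ha, haP⟩ := mem_rows.1 hrow
    rcases hA with hA | ⟨k, hk, hak, hkl⟩
    · exact ⟨one K c T a, Submodule.subset_span (Or.inl ⟨T, a, hT, hA, rfl⟩),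
        fun y _ => by rw [one_of_not T haP]⟩
    obtain ⟨h1, h2, h3⟩ := cov_vector (K := K) (c := c) hT ha hk hak
    refine ⟨((-1 : K) ^ epsX T k) • dd K c (one K c (insert k T) (a - Finsupp.single k 1)),
      Submodule.smul_mem _ _ (Submodule.subset_span (Or.inr ⟨_, _, h1, h2, rfl⟩)), fun y hy => ?_⟩
    have hsq : ((-1 : K) ^ epsX T k) * (-1) ^ epsX T k = 1 := by
      rw [← pow_add, ← two_mul, pow_mul]; simp
    rw [h3, smul_add, smul_smul, hsq, one_smul, Finsupp.add_apply, one_of_not T haP,
      add_eq_left, Finsupp.smul_apply, Finsupp.finsetSum_apply]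
    refine smul_eq_zero_of_right _ (Finset.sum_eq_zero fun l hl => ?_)
    rcases lt_trichotomy k l with h | h | h
    · rw [one_sq _ (tail_zero hkl hl h), smul_zero, Finsupp.zero_apply]
    · exact absurd (h ▸ hl) hk
    · by_cases hP : sqP c (a - Finsupp.single k 1 + Finsupp.single l 1)
      · rw [one_sq _ hP, smul_zero, Finsupp.zero_apply]
      · rw [one_of_not _ hP, Finsupp.smul_apply, Finsupp.single_eq_of_ne ?_, smul_zero]
        rintro rfl
        simp only [Vale.Agent.P200.bw] at hy
        have e1 := Finset.sum_erase_add (insert k T) (fun i => 2 ^ (i : ℕ)) (Finset.mem_insert_of_mem hl)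
        have e2 := Finset.sum_insert (f := fun i : Fin n => 2 ^ (i : ℕ)) hk
        have e3 : 2 ^ (l : ℕ) < 2 ^ (k : ℕ) := Nat.pow_lt_pow_right Nat.one_lt_two h
        dsimp only at hy e1 e2
        omega
  choose v hv hlead using hex
  have hw : ∀ (x : {x // x ∈ covSet c p e A}) (i : Finset (Fin n) × (Fin n →₀ ℕ)),
      Vale.Agent.P200.bw i.1 ≠ Vale.Agent.P200.bw x.1.1 →
        (Finsupp.single x.1 (1 : K) : CM K n) i = 0 := by
    intro x i hi
    refine Finsupp.single_eq_of_ne ?_
    intro h
    exact hi (by rw [h])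
  have h := lead_le (K := K) (ι := Finset (Fin n) × (Fin n →₀ ℕ)) (Γ := ℕ)
    (fun y => Vale.Agent.P200.bw y.1) (fun x : {x // x ∈ covSet c p e A} => Vale.Agent.P200.bw x.1.1)
    (fun x => Finsupp.single x.1 (1 : K)) v hw hlead (Submodule.span K (genF K c p e A))
  exact h hv

/-- Stability under moves to smaller indices outside the squares. -/
def StabF (c : ℕ) (A : Finset (Fin n →₀ ℕ)) : Prop :=
  ∀ a ∈ A, ∀ i j, i < j → ∀ b : Fin n →₀ ℕ, b + Finsupp.single j 1 = a + Finsupp.single i 1 →
    ¬ sqP c b → b ∈ A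

theorem cov_unique {cp : Fin n → Prop} {a : Fin n → ℕ} {T : Finset (Fin n)} {k k' : Fin n}
    (hk : k ∉ T ∧ 0 < a k ∧ ∀ l, k < l → (l ∈ T → cp l ∧ a l = 1) ∧ (l ∉ T → a l = 0))
    (hk' : k' ∉ T ∧ 0 < a k' ∧ ∀ l, k' < l → (l ∈ T → cp l ∧ a l = 1) ∧ (l ∉ T → a l = 0)) :
    k = k' := by
  rcases lt_trichotomy k k' with h | h | h
  · have := (hk.2.2 k' h).2 hk'.1; have := hk'.2.1; omega
  · exact h
  · have := (hk'.2.2 k h).2 hk.1; have := hk.2.1; omega

theorem bR_le_covSet (c p e : ℕ) (A : Finset (Fin n →₀ ℕ))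
    (hA : ∀ a ∈ A, a.degree = e ∧ ¬ sqP c a) (hst : StabF c A) :
    bR K c p e A ≤ (covSet c p e A).card := by
  classical
  let g : Finset (Fin n) × (Fin n →₀ ℕ) → CM K n := fun x =>
    if x.2 ∈ A then one K c x.1 x.2 else
      if h : Cov (capd c) (⇑x.2) x.1 then
        dd K c (one K c (insert h.choose x.1) (x.2 - Finsupp.single h.choose 1))
      else 0
  set Sp := Submodule.span K (((covSet c p e A).image g : Finset (CM K n)) : Set (CM K n))
  have hunit : ∀ T a, T.card = p → a ∈ A → one K c T a ∈ Sp := by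
    intro T a hT ha
    refine Submodule.subset_span ?_
    rw [Finset.coe_image]
    exact ⟨(T, a), Finset.mem_filter.2 ⟨mem_rows.2 ⟨hT, (hA a ha).1, (hA a ha).2⟩, Or.inl ha⟩,
      if_pos ha⟩
  have hcanon : ∀ (S : Finset (Fin n)) (v : Fin n →₀ ℕ) (k : Fin n), S.card = p + 1 →
      v.degree + 1 = e → k ∈ S → ¬ (k.1 < c ∧ v k = 1) →
      (∀ l, k < l → (l ∈ S → capd c l ∧ v l = 1) ∧ (l ∉ S → v l = 0)) →
      dd K c (one K c S v) ∈ Sp := by
    intro S v k hS hv hk hdev habove
    by_cases hvP : sqP c v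
    · rw [one_sq _ hvP, map_zero]; exact zero_mem _
    have ha : (v + Finsupp.single k 1).degree = e := by rw [map_add, Finsupp.degree_single]; omega
    have hcard : (S.erase k).card = p := by rw [Finset.card_erase_of_mem hk]; omega
    have haP : ¬ sqP c (v + Finsupp.single k 1) := by
      rintro ⟨l, hl, h2⟩
      by_cases hlk : l = k
      · subst hlk
        simp only [Finsupp.add_apply, Finsupp.single_eq_same] at h2
        rcases Nat.lt_or_ge (v l) 2 with h | h
        · exact hdev ⟨hl, by omega⟩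
        · exact hvP ⟨l, hl, h⟩
      · rw [Finsupp.add_apply, Finsupp.single_eq_of_ne hlk, add_zero] at h2
        exact hvP ⟨l, hl, h2⟩
    by_cases hA' : v + Finsupp.single k 1 ∈ A
    · rw [dd_one]
      refine Submodule.sum_mem _ fun l hl => ?_
      have hcard' : (S.erase l).card = p := by rw [Finset.card_erase_of_mem hl]; omega
      rcases lt_trichotomy k l with h | rfl | h
      · rw [one_sq _ (sqP_add_single ((habove l h).1 hl).1 ((habove l h).1 hl).2.ge), smul_zero]
        exact zero_mem _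
      · exact Submodule.smul_mem _ _ (hunit _ _ hcard hA')
      · by_cases hP : sqP c (v + Finsupp.single l 1)
        · rw [one_sq _ hP, smul_zero]; exact zero_mem _
        · refine Submodule.smul_mem _ _ (hunit _ _ hcard' (hst _ hA' l k h _ ?_ hP))
          abel
    · refine Submodule.subset_span ?_
      rw [Finset.coe_image]
      have hw : k ∉ S.erase k ∧ 0 < (v + Finsupp.single k 1 : Fin n →₀ ℕ) k ∧ ∀ l, k < l →
          (l ∈ S.erase k → capd c l ∧ (v + Finsupp.single k 1 : Fin n →₀ ℕ) l = 1) ∧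
          (l ∉ S.erase k → (v + Finsupp.single k 1 : Fin n →₀ ℕ) l = 0) := by
        refine ⟨Finset.notMem_erase k S, by simp, fun l hl => ?_⟩
        rw [Finsupp.add_apply, Finsupp.single_eq_of_ne hl.ne', add_zero]
        simp only [Finset.mem_erase, ne_eq, hl.ne', not_false_eq_true, true_and]
        exact habove l hl
      have hcov : Cov (capd c) (⇑(v + Finsupp.single k 1 : Fin n →₀ ℕ)) (S.erase k) := ⟨k, hw⟩
      refine ⟨(S.erase k, v + Finsupp.single k 1), Finset.mem_filter.2
        ⟨mem_rows.2 ⟨hcard, ha, haP⟩, Or.inr hcov⟩, ?_⟩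
      simp only [g, if_neg hA', dif_pos hcov]
      rw [cov_unique hcov.choose_spec hw, Finset.insert_erase hk, add_tsub_cancel_right]
  have hgen : ∀ (S : Finset (Fin n)) (v : Fin n →₀ ℕ), S.card = p + 1 → v.degree + 1 = e →
      dd K c (one K c S v) ∈ Sp := by
    intro S v hS hv
    by_cases hvP : sqP c v
    · rw [one_sq _ hvP, map_zero]; exact zero_mem _
    set Dv := Finset.univ.filter fun l : Fin n =>
      ¬ ((l ∈ S → capd c l ∧ v l = 1) ∧ (l ∉ S → v l = 0))
    rcases Dv.eq_empty_or_nonempty with hD | hD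
    · rw [dd_one]
      refine Submodule.sum_mem _ fun l hl => ?_
      have h := Finset.filter_eq_empty_iff.1 hD (Finset.mem_univ l)
      simp only [not_not] at h
      rw [one_sq _ (sqP_add_single (h.1 hl).1 (h.1 hl).2.ge), smul_zero]
      exact zero_mem _
    have habove : ∀ l, Dv.max' hD < l → (l ∈ S → capd c l ∧ v l = 1) ∧ (l ∉ S → v l = 0) := by
      intro l hl
      by_contra h
      exact absurd (Dv.le_max' l (Finset.mem_filter.2 ⟨Finset.mem_univ l, h⟩)) (not_le.2 hl)
    have hmem := (Finset.mem_filter.1 (Dv.max'_mem hD)).2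
    set k := Dv.max' hD
    by_cases hk : k ∈ S
    · refine hcanon S v k hS hv hk (fun h => hmem ⟨fun _ => h, fun h' => absurd hk h'⟩) habove
    have hvk : 0 < v k := by
      by_contra h
      exact hmem ⟨fun h' => absurd h' hk, fun _ => by omega⟩
    set u := v - Finsupp.single k 1
    have hu : u + Finsupp.single k 1 = v := tsub_add_cancel_of_le (Finsupp.single_le_iff.2 hvk)
    have h0 := dd_dd (K := K) c (insert k S) u
    rw [dd_one, Finset.sum_insert hk, Finset.erase_insert hk, hu, map_add, map_smul, map_sum,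
      add_eq_zero_iff_eq_neg] at h0
    rw [← Submodule.smul_mem_iff Sp (pow_ne_zero (epsX S k) (neg_ne_zero.2 (one_ne_zero (α := K)))),
      h0]
    refine Submodule.neg_mem _ (Submodule.sum_mem _ fun l hl => ?_)
    rw [map_smul]
    refine Submodule.smul_mem _ _ ?_
    have hlk : l ≠ k := fun h => hk (h ▸ hl)
    rcases lt_or_gt_of_ne hlk with h | h
    · have hdeg : (u + Finsupp.single l 1).degree + 1 = e := by
        rw [← hu, map_add, Finsupp.degree_single] at hv
        rw [map_add, Finsupp.degree_single]; omega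
      refine hcanon _ _ k ?_ hdeg (Finset.mem_erase.2 ⟨hlk.symm, Finset.mem_insert_self k S⟩) ?_ ?_
      · rw [Finset.card_erase_of_mem (Finset.mem_insert_of_mem hl),
          Finset.card_insert_of_notMem hk, hS]
        omega
      · rintro ⟨hkc, h1⟩
        simp only [u, Finsupp.add_apply, Finsupp.tsub_apply, Finsupp.single_eq_same,
          Finsupp.single_eq_of_ne hlk.symm] at h1
        exact hvP ⟨k, hkc, by omega⟩
      · intro l' hl'
        have hne : l' ≠ l := (h.trans hl').ne'
        simp only [u, Finset.mem_erase, Finset.mem_insert, Finsupp.add_apply, Finsupp.tsub_apply,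
          Finsupp.single_eq_of_ne hl'.ne', Finsupp.single_eq_of_ne hne, ne_eq, hne, hl'.ne',
          not_false_eq_true, true_and, false_or, tsub_zero, add_zero]
        exact habove l' hl'
    · rw [one_sq _ (sqP_add_single ((habove l h).1 hl).1 ?_), map_zero]
      · exact zero_mem _
      · simp only [u, Finsupp.tsub_apply, Finsupp.single_eq_of_ne hlk, ((habove l h).1 hl).2]
        omega
  have hsub : Submodule.span K (genF K c p e A) ≤ Sp := by
    refine Submodule.span_le.2 ?_
    rintro v (⟨T, a, hT, ha, rfl⟩ | ⟨S, a, hS, ha, rfl⟩)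
    · exact hunit T a hT ha
    · exact hgen S a hS ha
  have : Module.Finite K Sp := Module.Finite.span_of_finite K (Finset.finite_toSet _)
  exact (Submodule.finrank_mono hsub).trans
    ((finrank_span_finset_le_card _).trans Finset.card_image_le)

end Vale.Agent.P200c
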