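import Vale.Agent.P200c.Model

/-!
Shifting: boundary ranks do not increase when exponents are moved to smaller indices.
-/

noncomputable section

namespace Vale.Agent.P200c

open Vale.Agent.P200b

variable {K : Type*} [Field K] {n c : ℕ} {i j : Fin n}

/-- Moving one unit of an exponent from `j` to `i`. -/
def shx (i j : Fin n) (a : Fin n →₀ ℕ) : Fin n →₀ ℕ :=
  a - Finsupp.single j 1 + Finsupp.single i 1

theorem shx_add {a : Fin n →₀ ℕ} (h : 0 < a j) :
    shx i j a + Finsupp.single j 1 = a + Finsupp.single i 1 := by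
  rw [shx, add_right_comm, tsub_add_cancel_of_le (Finsupp.single_le_iff.2 h)]

theorem shx_degree {a : Fin n →₀ ℕ} (h : 0 < a j) : (shx i j a).degree = a.degree := by
  have := congrArg Finsupp.degree (shx_add (i := i) h)
  rw [map_add, map_add, Finsupp.degree_single, Finsupp.degree_single] at this
  omega

theorem lt_shx (hij : i < j) {a : Fin n →₀ ℕ} (h : 0 < a j) : toLex a < toLex (shx i j a) := by
  refine Finsupp.Lex.lt_iff.2 ⟨i, fun l hl => ?_, ?_⟩
  · simp [shx, hl.ne, (hl.trans hij).ne]
  · simp [shx, hij.ne]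

/-- A monomial and its shift. -/
def psi (K : Type*) [Field K] (c : ℕ) (i j : Fin n) (T : Finset (Fin n)) (a : Fin n →₀ ℕ) :
    CM K n := by
  classical
  exact if sqP c a then 0 else one K c T a + if 0 < a j then one K c T (shx i j a) else 0

/-- The twisting coefficient. -/
def tau (K : Type*) [Field K] (c : ℕ) (j : Fin n) (a : Fin n →₀ ℕ) : K :=
  if j.1 < c ∧ a j = 1 then -1 else if a j = 0 then 1 else 0

/-- The sign of replacing `j` by `i`. -/
def sig (K : Type*) [Field K] (i j : Fin n) (T : Finset (Fin n)) : K :=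
  (-1) ^ (T.filter fun l => i < l ∧ l < j).card

/-- Replacing `j` by `i`. -/
def sw (i j : Fin n) (T : Finset (Fin n)) : Finset (Fin n) := insert i (T.erase j)

/-- The shifting map on a monomial chain. -/
def phi1 (K : Type*) [Field K] (c : ℕ) (i j : Fin n) (x : Finset (Fin n) × (Fin n →₀ ℕ)) :
    CM K n :=
  psi K c i j x.1 x.2 +
    if j ∈ x.1 ∧ i ∉ x.1 then (tau K c j x.2 * sig K i j x.1) • psi K c i j (sw i j x.1) x.2 else 0

/-- The shifting map. -/
def shiftMap (K : Type*) [Field K] (c : ℕ) (i j : Fin n) : CM K n →ₗ[K] CM K n :=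
  Finsupp.linearCombination K (phi1 K c i j)

theorem shiftMap_one (T : Finset (Fin n)) (a : Fin n →₀ ℕ) :
    shiftMap K c i j (one K c T a) = phi1 K c i j (T, a) := by
  classical
  by_cases h : sqP c a
  · rw [one_sq T h, map_zero]
    simp [phi1, psi, h]
  · rw [one_of_not T h, shiftMap, Finsupp.linearCombination_single, one_smul]

theorem psi_eq (T : Finset (Fin n)) (a : Fin n →₀ ℕ) :
    psi K c i j T a = shiftMap K c i j (one K c T a -
      if j ∈ T ∧ i ∉ T then (tau K c j a * sig K i j T) • one K c (sw i j T) a else 0) := by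
  by_cases h : j ∈ T ∧ i ∉ T
  · have h' : ¬ (j ∈ sw i j T ∧ i ∉ sw i j T) := fun h' => h'.2 (Finset.mem_insert_self _ _)
    rw [if_pos h, map_sub, map_smul, shiftMap_one, shiftMap_one, phi1, phi1, if_pos h, if_neg h']
    simp
  · rw [if_neg h, sub_zero, shiftMap_one, phi1, if_neg h, add_zero]

/-- The shifted product with a variable. -/
def tX (K : Type*) [Field K] (c : ℕ) (i j k : Fin n) (T : Finset (Fin n)) (v : Fin n →₀ ℕ) :
    CM K n :=
  one K c T (v + Finsupp.single k 1) +
    if 0 < v j then one K c T (shx i j v + Finsupp.single k 1) else 0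

theorem dd_psi {v : Fin n →₀ ℕ} (hv : ¬ sqP c v) (S : Finset (Fin n)) :
    dd K c (psi K c i j S v) =
      ∑ k ∈ S, ((-1 : K) ^ epsX (S.erase k) k) • tX K c i j k (S.erase k) v := by
  rw [psi, if_neg hv, map_add, dd_one]
  simp only [tX, smul_add, Finset.sum_add_distrib]
  by_cases h : 0 < v j
  · simp only [if_pos h, dd_one]
  · simp only [if_neg h, map_zero, smul_zero, Finset.sum_const_zero]

theorem psi_add_ne (hij : i < j) {v : Fin n →₀ ℕ} (hv : ¬ sqP c v) {k : Fin n} (hk : k ≠ j)
    (T : Finset (Fin n)) : psi K c i j T (v + Finsupp.single k 1) = tX K c i j k T v := by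
  have hj : (v + Finsupp.single k 1 : Fin n →₀ ℕ) j = v j := by simp [hk.symm]
  unfold psi tX
  rw [hj]
  by_cases h0 : 0 < v j
  · have e : shx i j (v + Finsupp.single k 1) = shx i j v + Finsupp.single k 1 := by
      ext l
      simp only [shx, Finsupp.add_apply, Finsupp.tsub_apply]
      by_cases hl : l = j
      · subst hl; simp [hk.symm, hij.ne']
      · simp [hl]; omega
    rw [if_pos h0, if_pos h0, e]
    by_cases hP : sqP c (v + Finsupp.single k 1)
    · rw [if_pos hP, one_sq T hP, one_sq T ?_, add_zero]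
      obtain ⟨l, hlc, hl⟩ := hP
      refine ⟨l, hlc, ?_⟩
      by_cases hlj : l = j
      · subst hlj
        exact absurd ⟨l, hlc, by rw [hj] at hl; exact hl⟩ hv
      · simp only [shx, Finsupp.add_apply, Finsupp.tsub_apply, Finsupp.single_eq_of_ne hlj,
          tsub_zero] at hl ⊢
        omega
    · rw [if_neg hP]
  · rw [if_neg h0, if_neg h0, add_zero]
    split_ifs with hP
    · rw [one_sq T hP]
    · rfl

theorem psi_add_eq (hij : i < j) {v : Fin n →₀ ℕ} (hv : ¬ sqP c v) (T : Finset (Fin n)) :
    psi K c i j T (v + Finsupp.single j 1) = tX K c i j j T v + tau K c j v • tX K c i j i T v := by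
  have e1 : shx i j (v + Finsupp.single j 1) = v + Finsupp.single i 1 := by
    rw [shx, add_tsub_cancel_right]
  have hpos : 0 < (v + Finsupp.single j 1 : Fin n →₀ ℕ) j := by simp
  unfold psi tX tau
  rw [if_pos hpos, e1]
  by_cases hc : j.1 < c ∧ v j = 1
  · have hP : sqP c (v + Finsupp.single j 1) := sqP_add_single hc.1 hc.2.ge
    have h0 : 0 < v j := by omega
    rw [if_pos hP, if_pos hc, one_sq T hP, if_pos h0, if_pos h0, shx_add h0,
      one_sq T (a := shx i j v + Finsupp.single i 1) ⟨i, by have : i.1 < j.1 := hij; omega, ?_⟩]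
    · simp
    · simp only [shx, Finsupp.add_apply, Finsupp.tsub_apply, Finsupp.single_eq_same]
      omega
  have hP : ¬ sqP c (v + Finsupp.single j 1) := by
    rintro ⟨l, hlc, hl⟩
    by_cases hlj : l = j
    · subst hlj
      simp only [Finsupp.add_apply, Finsupp.single_eq_same] at hl
      rcases Nat.lt_or_ge (v l) 2 with h | h
      · exact hc ⟨hlc, by omega⟩
      · exact hv ⟨l, hlc, h⟩
    · rw [Finsupp.add_apply, Finsupp.single_eq_of_ne hlj, add_zero] at hl
      exact hv ⟨l, hlc, hl⟩
  rw [if_neg hP, if_neg hc]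
  by_cases h0 : v j = 0
  · simp [h0]
  · rw [if_neg h0, if_pos (Nat.pos_of_ne_zero h0), shx_add (Nat.pos_of_ne_zero h0)]
    simp

theorem eps_insert {i k : Fin n} {T : Finset (Fin n)} (h : i ∉ T) :
    epsX (insert i T) k = epsX T k + if i < k then 1 else 0 := by
  unfold epsX
  rw [Finset.filter_insert]
  split_ifs with hik
  · rw [Finset.card_insert_of_notMem (by simp [h])]
  · rfl

theorem eps_erase {i k : Fin n} {T : Finset (Fin n)} (h : i ∈ T) :
    epsX T k = epsX (T.erase i) k + if i < k then 1 else 0 := by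
  conv_lhs => rw [← Finset.insert_erase h]
  exact eps_insert (Finset.notMem_erase i T)

theorem btw_erase {k : Fin n} {T : Finset (Fin n)} (h : k ∈ T) :
    (T.filter fun l => i < l ∧ l < j).card =
      ((T.erase k).filter fun l => i < l ∧ l < j).card + if i < k ∧ k < j then 1 else 0 := by
  rw [Finset.filter_erase]
  split_ifs with hk
  · rw [Finset.card_erase_add_one (by simp [h, hk])]
  · rw [Finset.erase_eq_of_notMem (by simp [hk]), add_zero]

theorem eps_split (hij : i < j) {T : Finset (Fin n)} (hi : i ∉ T) :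
    epsX T j = epsX T i + (T.filter fun l => i < l ∧ l < j).card := by
  unfold epsX
  rw [← Finset.card_union_of_disjoint]
  · congr 1
    ext l
    simp only [Finset.mem_filter, Finset.mem_union]
    constructor
    · rintro ⟨hl, hlj⟩
      rcases lt_trichotomy l i with h | h | h
      · exact Or.inl ⟨hl, h⟩
      · exact absurd (h ▸ hl) hi
      · exact Or.inr ⟨hl, h, hlj⟩
    · rintro (⟨hl, h⟩ | ⟨hl, -, h⟩)
      · exact ⟨hl, h.trans hij⟩
      · exact ⟨hl, h⟩
  · refine Finset.disjoint_left.2 fun l h1 h2 => ?_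
    simp only [Finset.mem_filter] at h1 h2
    exact absurd h1.2 (not_lt.2 h2.2.1.le)

theorem shiftMap_dd (hij : i < j) (S : Finset (Fin n)) (v : Fin n →₀ ℕ) :
    shiftMap K c i j (dd K c (one K c S v)) = dd K c (shiftMap K c i j (one K c S v)) := by
  classical
  by_cases hv : sqP c v
  · simp [one_sq S hv]
  set a : Fin n → K := fun k => (-1 : K) ^ epsX (S.erase k) k
  set τ := tau K c j v
  have hterm : ∀ k ∈ S, k ≠ j → shiftMap K c i j (one K c (S.erase k) (v + Finsupp.single k 1)) =
      tX K c i j k (S.erase k) v + if j ∈ S ∧ i ∉ S.erase k then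
        (τ * sig K i j (S.erase k)) • tX K c i j k (sw i j (S.erase k)) v else 0 := by
    intro k hk hkj
    have ht : tau K c j (v + Finsupp.single k 1) = τ := by
      have : (v + Finsupp.single k 1 : Fin n →₀ ℕ) j = v j := by simp [hkj.symm]
      simp only [τ, tau, this]
    rw [shiftMap_one, phi1, psi_add_ne hij hv hkj, psi_add_ne hij hv hkj, ht]
    simp [hkj.symm]
  rw [shiftMap_one, phi1, map_add, dd_psi hv, dd_one, map_sum]
  simp only [map_smul]
  by_cases hjS : j ∈ S
  swap
  · rw [if_neg (fun h => hjS h.1), map_zero, add_zero]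
    refine Finset.sum_congr rfl fun k hk => ?_
    rw [hterm k hk (fun h => hjS (h ▸ hk)), if_neg (fun h => hjS h.1), add_zero]
  have hj : shiftMap K c i j (one K c (S.erase j) (v + Finsupp.single j 1)) =
      tX K c i j j (S.erase j) v + τ • tX K c i j i (S.erase j) v := by
    rw [shiftMap_one, phi1, psi_add_eq hij hv, if_neg (by simp), add_zero]
  rw [← Finset.sum_erase_add S _ hjS, ← Finset.sum_erase_add S _ hjS, hj, smul_add]
  by_cases hiS : i ∈ S
  · rw [if_neg (fun h => h.2 hiS), map_zero, add_zero]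
    have e : ∀ k ∈ S.erase j, a k • shiftMap K c i j (one K c (S.erase k) (v + Finsupp.single k 1)) =
        a k • tX K c i j k (S.erase k) v + if k = i then
          (a i * τ * sig K i j (S.erase i)) • tX K c i j i (S.erase j) v else 0 := by
      intro k hk
      obtain ⟨hkj, hkS⟩ := Finset.mem_erase.1 hk
      rw [hterm k hkS hkj, smul_add]
      congr 1
      by_cases hki : k = i
      · subst hki
        have : sw k j (S.erase k) = S.erase j := by
          rw [sw, Finset.erase_right_comm, Finset.insert_erase]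
          exact Finset.mem_erase.2 ⟨hkj, hkS⟩
        simp [hjS, this, smul_smul, mul_assoc]
      · rw [if_neg hki, if_neg ?_, smul_zero]
        exact fun h => h.2 (Finset.mem_erase.2 ⟨Ne.symm hki, hiS⟩)
    rw [Finset.sum_congr rfl e, Finset.sum_add_distrib, Finset.sum_ite_eq',
      if_pos (Finset.mem_erase.2 ⟨hij.ne, hiS⟩)]
    have hs : a i * τ * sig K i j (S.erase i) = -(a j * τ) := by
      have h1 : epsX (S.erase j) j = epsX (S.erase i) i +
          ((S.erase i).filter fun l => i < l ∧ l < j).card + 1 := by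
        have h2 := eps_erase (k := j) hiS
        have h3 := eps_erase (k := j) hjS
        rw [if_pos hij] at h2
        rw [if_neg (lt_irrefl j), add_zero] at h3
        rw [← h3, h2, eps_split hij (Finset.notMem_erase i S)]
      simp only [a, sig, h1, pow_succ, pow_add]
      ring
    rw [hs, neg_smul, smul_smul]
    abel
  · rw [if_pos ⟨hjS, hiS⟩, map_smul, dd_psi hv]
    set S' := sw i j S
    have hiS' : i ∈ S' := Finset.mem_insert_self _ _
    have hsi : S'.erase i = S.erase j := Finset.erase_insert (fun h => hiS (Finset.mem_of_mem_erase h))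
    rw [← Finset.sum_erase_add S' _ hiS', hsi, smul_add, Finset.smul_sum]
    have e : ∀ k ∈ S.erase j, a k • shiftMap K c i j (one K c (S.erase k) (v + Finsupp.single k 1)) =
        a k • tX K c i j k (S.erase k) v +
          (τ * sig K i j S) • ((-1 : K) ^ epsX (S'.erase k) k) • tX K c i j k (S'.erase k) v := by
      intro k hk
      obtain ⟨hkj, hkS⟩ := Finset.mem_erase.1 hk
      have hki : k ≠ i := fun h => hiS (h ▸ hkS)
      have hsw : sw i j (S.erase k) = S'.erase k := by
        simp only [S', sw]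
        rw [Finset.erase_insert_of_ne hki.symm, Finset.erase_right_comm]
      rw [hterm k hkS hkj, smul_add, if_pos ⟨hjS, fun h => hiS (Finset.mem_of_mem_erase h)⟩, hsw,
        smul_smul, smul_smul]
      congr 2
      have h1 : epsX (S'.erase k) k + (if j < k then 1 else 0) =
          epsX (S.erase k) k + if i < k then 1 else 0 := by
        rw [← hsw, sw, eps_insert (fun h => hiS (Finset.mem_of_mem_erase
          (Finset.mem_of_mem_erase h))), eps_erase (T := S.erase k) (k := k)
          (Finset.mem_erase.2 ⟨hkj.symm, hjS⟩)]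
        omega
      have h2 := btw_erase (i := i) (j := j) hkS
      have h3 : (epsX (S.erase k) k + ((S.erase k).filter fun l => i < l ∧ l < j).card) % 2 =
          ((S.filter fun l => i < l ∧ l < j).card + epsX (S'.erase k) k) % 2 := by
        rcases lt_trichotomy k i with h | h | h
        · simp [not_lt.2 h.le, not_lt.2 (h.trans hij).le] at h1 h2
          omega
        · exact absurd h hki
        · rcases lt_or_gt_of_ne hkj with h' | h'
          · simp [h, h', not_lt.2 h'.le] at h1 h2
            omega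
          · simp [h, h', not_lt.2 h'.le] at h1 h2
            omega
      calc a k * (τ * sig K i j (S.erase k))
          = τ * (-1 : K) ^ (epsX (S.erase k) k +
              ((S.erase k).filter fun l => i < l ∧ l < j).card) := by
            simp only [a, sig, pow_add]; ring
        _ = τ * (-1 : K) ^ ((S.filter fun l => i < l ∧ l < j).card + epsX (S'.erase k) k) := by
            rw [neg_one_pow_eq_pow_mod_two, h3, ← neg_one_pow_eq_pow_mod_two]
        _ = τ * sig K i j S * (-1 : K) ^ epsX (S'.erase k) k := by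
            simp only [sig, pow_add]; ring
    rw [Finset.sum_congr rfl e, Finset.sum_add_distrib]
    have hs : τ * sig K i j S * (-1 : K) ^ epsX (S.erase j) i = a j * τ := by
      have h1 := eps_split hij (T := S.erase j) (fun h => hiS (Finset.mem_of_mem_erase h))
      have h2 : ((S.erase j).filter fun l => i < l ∧ l < j).card =
          (S.filter fun l => i < l ∧ l < j).card := by
        rw [btw_erase (i := i) (j := j) hjS]
        simp
      simp only [a, sig, h1, h2, pow_add]
      ring
    rw [smul_smul (τ * sig K i j S), hs, smul_smul (a j) τ]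
    abel

theorem src_mem (hij : i < j) {p e : ℕ} (A : Finset (Fin n →₀ ℕ)) :
    ∀ (m : ℕ) (S : Finset (Fin n)) (v : Fin n →₀ ℕ), v j = m → S.card = p + 1 → v.degree + 1 = e →
      dd K c (one K c S v) ∈ (Submodule.span K (genF K c p e A)).map (shiftMap K c i j) := by
  classical
  intro m
  induction m using Nat.strong_induction_on with
  | _ m ih =>
    intro S v hm hS hv
    by_cases hP : sqP c v
    · rw [one_sq S hP, map_zero]; exact zero_mem _
    have hcard : j ∈ S ∧ i ∉ S → (sw i j S).card = p + 1 := fun h => by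
      rw [sw, Finset.card_insert_of_notMem (fun h' => h.2 (Finset.mem_of_mem_erase h')),
        Finset.card_erase_of_mem h.1, hS]
      omega
    have hz : dd K c (psi K c i j S v) ∈
        (Submodule.span K (genF K c p e A)).map (shiftMap K c i j) := by
      rw [psi_eq, map_sub (shiftMap K c i j), map_sub]
      refine Submodule.sub_mem _ ?_ ?_
      · rw [← shiftMap_dd hij]
        exact Submodule.mem_map_of_mem (Submodule.subset_span (Or.inr ⟨S, v, hS, hv, rfl⟩))
      · split_ifs with h
        · rw [map_smul, map_smul, ← shiftMap_dd hij]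
          exact Submodule.smul_mem _ _ (Submodule.mem_map_of_mem
            (Submodule.subset_span (Or.inr ⟨_, v, hcard h, hv, rfl⟩)))
        · simp
    rw [psi, if_neg hP, map_add] at hz
    by_cases h0 : 0 < v j
    · rw [if_pos h0] at hz
      have h1 := ih (shx i j v j) (by simp [shx, hij.ne']; omega) S (shx i j v) rfl hS
        (by rw [shx_degree h0]; exact hv)
      simpa using Submodule.sub_mem _ hz h1
    · simpa [if_neg h0] using hz

/-- The number of exponents of a set above each exponent of the degree. -/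
def above (e : ℕ) (A : Finset (Fin n →₀ ℕ)) : ℕ := by
  classical
  exact ∑ x ∈ Vale.Agent.P200.degSet n e, (A.filter fun a => toLex x ≤ toLex a).card

/-- Coordinates of a monomial outside the squares. -/
def evec (K : Type*) [Field K] (c e : ℕ) (x : Fin n →₀ ℕ) : Ex n e → K := by
  classical exact fun y => if y.1 = x ∧ ¬ sqP c x then 1 else 0

/-- Coordinates of a monomial and its shift. -/
def pvec (K : Type*) [Field K] (c e : ℕ) (i j : Fin n) (a : Fin n →₀ ℕ) : Ex n e → K :=
  fun y => evec K c e a y + if 0 < a j then evec K c e (shx i j a) y else 0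

/-- Lex greater exponents come first. -/
def rwt (e : ℕ) (y : Ex n e) : (Lex (Fin n →₀ ℕ))ᵒᵈ := OrderDual.toDual (toLex y.1)

theorem rwt_injective (e : ℕ) : Function.Injective (rwt (n := n) e) := fun _ _ h =>
  Subtype.ext (toLex.injective (OrderDual.toDual.injective h))

/-- The span of shifted monomials. -/
def shSpan (K : Type*) [Field K] (c e : ℕ) (i j : Fin n) (B : Finset (Fin n →₀ ℕ)) :
    Submodule K (Ex n e → K) :=
  Submodule.span K (Set.range fun b : {b // b ∈ B} => pvec K c e i j b.1)

/-- The shifted family. -/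
def shFam (K : Type*) [Field K] (c e : ℕ) (i j : Fin n) (A : Finset (Fin n →₀ ℕ)) :
    Finset (Fin n →₀ ℕ) := by
  classical
  exact ((Finset.univ : Finset (Ex n e)).filter
    fun y => Piv (rwt e) (shSpan K c e i j A) y).image Subtype.val

theorem mem_shFam {e : ℕ} {A : Finset (Fin n →₀ ℕ)} {x : Fin n →₀ ℕ} :
    x ∈ shFam K c e i j A ↔ ∃ h : x.degree = e, Piv (rwt e) (shSpan K c e i j A) ⟨x, h⟩ := by
  simp [shFam]

theorem toLex_le_of_pvec (hij : i < j) {e : ℕ} {a : Fin n →₀ ℕ} {y : Ex n e}
    (hy : pvec K c e i j a y ≠ 0) : toLex a ≤ toLex y.1 := by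
  by_contra hlt
  push Not at hlt
  apply hy
  have h1 : y.1 ≠ a := fun h => hlt.ne (congrArg toLex h)
  unfold pvec evec
  rw [if_neg (fun h => h1 h.1), zero_add]
  split_ifs with h0 h2
  · exact absurd (congrArg toLex h2.1) (hlt.trans (lt_shx hij h0)).ne
  · rfl
  · rfl

theorem pvec_sq {e : ℕ} (a : Fin n →₀ ℕ) {y : Ex n e} (hP : sqP c y.1) :
    pvec K c e i j a y = 0 := by
  have h : ∀ x, evec K c e x y = 0 := fun x => if_neg fun h => h.2 (h.1 ▸ hP)
  simp [pvec, h]

theorem notP_of_shSpan {e : ℕ} {A : Finset (Fin n →₀ ℕ)} {u : Ex n e → K}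
    (hu : u ∈ shSpan K c e i j A) {y : Ex n e} (hy : u y ≠ 0) : ¬ sqP c y.1 := by
  intro hP
  apply hy
  clear hy
  induction hu using Submodule.span_induction with
  | mem v hv =>
    obtain ⟨b, rfl⟩ := hv
    exact pvec_sq b.1 hP
  | zero => rfl
  | add x z _ _ hx hz => simp [hx, hz]
  | smul r x _ hx => simp [hx]

theorem finrank_shSpan (hij : i < j) {e : ℕ} (B : Finset (Fin n →₀ ℕ))
    (hB : ∀ a ∈ B, a.degree = e ∧ ¬ sqP c a) :
    Module.finrank K (shSpan K c e i j B) = B.card := by
  classical
  rw [shSpan, finrank_span_eq_card (b := fun b : {b // b ∈ B} => pvec K c e i j b.1),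
    Fintype.card_coe]
  rw [Fintype.linearIndependent_iff]
  intro g hg
  by_contra hne
  push Not at hne
  obtain ⟨b0, hb0, hmin⟩ := Finset.exists_min_image
    (Finset.univ.filter fun b : {b // b ∈ B} => g b ≠ 0) (fun b => toLex b.1)
    (by obtain ⟨b, hb⟩ := hne; exact ⟨b, by simpa using hb⟩)
  simp only [Finset.mem_filter, Finset.mem_univ, true_and] at hb0 hmin
  obtain ⟨hd, hP⟩ := hB b0.1 b0.2
  have h := congrFun hg ⟨b0.1, hd⟩
  simp only [Finset.sum_apply, Pi.smul_apply, smul_eq_mul, Pi.zero_apply] at h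
  rw [Finset.sum_eq_single b0] at h
  · refine hb0 ((mul_eq_zero.1 h).resolve_right ?_)
    unfold pvec evec
    rw [if_pos ⟨rfl, hP⟩]
    split_ifs with h0 h2
    · exact absurd (congrArg toLex h2.1) (lt_shx hij h0).ne
    · simp
    · simp
  · intro b _ hbne
    by_cases hgb : g b = 0
    · rw [hgb, zero_mul]
    · by_contra hne'
      exact hbne (Subtype.ext (toLex.injective
        (le_antisymm (toLex_le_of_pvec hij (right_ne_zero_of_mul hne')) (hmin b hgb))))
  · simp

theorem shFam_props (hij : i < j) {e : ℕ} {A : Finset (Fin n →₀ ℕ)}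
    (hA : ∀ a ∈ A, a.degree = e ∧ ¬ sqP c a) :
    (∀ a ∈ shFam K c e i j A, a.degree = e ∧ ¬ sqP c a) ∧
      (shFam K c e i j A).card = A.card := by
  classical
  refine ⟨fun a ha => ?_, ?_⟩
  · obtain ⟨h, u, hu, hy, -⟩ := mem_shFam.1 ha
    exact ⟨h, notP_of_shSpan hu hy⟩
  · rw [shFam, Finset.card_image_of_injective _ Subtype.val_injective,
      ← finrank_shSpan (K := K) hij A hA, ← ncard_piv (rwt_injective e), ← Set.ncard_coe_finset,
      Finset.coe_filter]
    simp

/-- Spreading coordinates over the chains supported on a set. -/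
def spread (K : Type*) [Field K] (c e : ℕ) (T : Finset (Fin n)) : (Ex n e → K) →ₗ[K] CM K n :=
  ∑ y : Ex n e, (LinearMap.proj (R := K) (φ := fun _ : Ex n e => K) y).smulRight (one K c T y.1)

theorem spread_apply (e : ℕ) (T : Finset (Fin n)) (u : Ex n e → K) :
    spread K c e T u = ∑ y : Ex n e, u y • one K c T y.1 := by
  simp [spread]

theorem spread_evec {e : ℕ} (T : Finset (Fin n)) {x : Fin n →₀ ℕ} (hx : x.degree = e) :
    spread K c e T (evec K c e x) = one K c T x := by
  classical
  rw [spread_apply, Finset.sum_eq_single ⟨x, hx⟩]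
  · by_cases hP : sqP c x
    · simp [evec, one_sq T hP]
    · simp [evec, hP]
  · intro y _ hy
    have hyx : y.1 ≠ x := fun h => hy (Subtype.ext h)
    simp [evec, hyx]
  · simp

theorem spread_mem {p e : ℕ} {A : Finset (Fin n →₀ ℕ)} (hA : ∀ a ∈ A, a.degree = e ∧ ¬ sqP c a)
    {T : Finset (Fin n)} (hT : T.card = p) {u : Ex n e → K} (hu : u ∈ shSpan K c e i j A) :
    spread K c e T u ∈ (Submodule.span K (genF K c p e A)).map (shiftMap K c i j) := by
  classical
  induction hu using Submodule.span_induction with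
  | mem v hv =>
    obtain ⟨⟨a, ha⟩, rfl⟩ := hv
    have e0 : pvec K c e i j a =
        evec K c e a + if 0 < a j then evec K c e (shx i j a) else 0 := by
      funext y
      unfold pvec
      split_ifs <;> simp [*]
    have e1 : spread K c e T (pvec K c e i j a) = psi K c i j T a := by
      rw [e0, map_add, spread_evec T (hA a ha).1, psi, if_neg (hA a ha).2]
      split_ifs with h0
      · rw [spread_evec T (by rw [shx_degree h0]; exact (hA a ha).1)]
      · rw [map_zero]
    show spread K c e T (pvec K c e i j a) ∈ _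
    rw [e1, psi_eq]
    refine Submodule.mem_map_of_mem (Submodule.sub_mem _
      (Submodule.subset_span (Or.inl ⟨T, a, hT, ha, rfl⟩)) ?_)
    split_ifs with h
    · refine Submodule.smul_mem _ _ (Submodule.subset_span (Or.inl ⟨sw i j T, a, ?_, ha, rfl⟩))
      rw [sw, Finset.card_insert_of_notMem (fun h' => h.2 (Finset.mem_of_mem_erase h')),
        Finset.card_erase_of_mem h.1, hT]
      have := Finset.card_pos.2 ⟨j, h.1⟩
      omega
    · exact zero_mem _
  | zero => simp
  | add x y _ _ hx hy => rw [map_add]; exact add_mem hx hy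
  | smul r x _ hx => rw [map_smul]; exact Submodule.smul_mem _ r hx

/-- The weight of a row. -/
def cwt (x : Finset (Fin n) × (Fin n →₀ ℕ)) : (Lex (Fin n →₀ ℕ))ᵒᵈ :=
  OrderDual.toDual (toLex (x.2 + chi x.1))

theorem dd_one_homog (S : Finset (Fin n)) (v : Fin n →₀ ℕ)
    (y : Finset (Fin n) × (Fin n →₀ ℕ)) (hy : cwt y ≠ cwt (S, v)) :
    dd K c (one K c S v) y = 0 := by
  rw [dd_one, Finsupp.finsetSum_apply]
  refine Finset.sum_eq_zero fun l hl => ?_
  by_cases hP : sqP c (v + Finsupp.single l 1)
  · rw [one_sq _ hP, smul_zero, Finsupp.zero_apply]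
  · rw [one_of_not _ hP, Finsupp.smul_apply, Finsupp.single_eq_of_ne ?_, smul_zero]
    intro h
    apply hy
    subst h
    simp only [cwt, add_assoc, chi_erase hl]

theorem lift_unit (hij : i < j) {p e : ℕ} {A : Finset (Fin n →₀ ℕ)}
    (hA : ∀ a ∈ A, a.degree = e ∧ ¬ sqP c a) {T : Finset (Fin n)} (hT : T.card = p)
    {a : Fin n →₀ ℕ} (ha : a ∈ shFam K c e i j A) :
    ∃ v ∈ (Submodule.span K (genF K c p e A)).map (shiftMap K c i j),
      ∀ y, cwt y ≤ cwt (T, a) → v y = (Finsupp.single (T, a) 1 : CM K n) y := by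
  classical
  obtain ⟨hd, u, hu, hua, hlow⟩ := mem_shFam.1 ha
  have haP := notP_of_shSpan hu hua
  refine ⟨spread K c e T ((u ⟨a, hd⟩)⁻¹ • u),
    spread_mem hA hT (Submodule.smul_mem _ _ hu), fun y hy => ?_⟩
  rw [spread_apply, Finsupp.finsetSum_apply, Finset.sum_eq_single ⟨a, hd⟩]
  · rw [Pi.smul_apply, smul_eq_mul, inv_mul_cancel₀ hua, one_smul, one_of_not T haP]
  · intro z _ hz
    by_cases huz : u z = 0
    · simp [huz]
    rw [one_of_not T (notP_of_shSpan hu huz), Finsupp.smul_apply, Finsupp.single_eq_of_ne ?_,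
      smul_zero]
    intro h
    subst h
    have hlt : toLex z.1 < toLex a := by
      refine lt_of_le_of_ne ?_ (fun h => hz (Subtype.ext (toLex.injective h)))
      by_contra hgt
      push Not at hgt
      exact huz (hlow z (OrderDual.toDual_lt_toDual.2 hgt))
    have h2 : toLex (a + chi T) ≤ toLex (z.1 + chi T) := OrderDual.toDual_le_toDual.1 hy
    rw [toLex_add, toLex_add] at h2
    exact absurd h2 (not_le.2 (add_lt_add_left hlt _))
  · simp

theorem bR_shFam_le (hij : i < j) (p e : ℕ) {A : Finset (Fin n →₀ ℕ)}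
    (hA : ∀ a ∈ A, a.degree = e ∧ ¬ sqP c a) :
    bR K c p e (shFam K c e i j A) ≤ bR K c p e A := by
  classical
  have : Module.Finite K (Submodule.span K (genF K c p e A)) :=
    Module.Finite.span_of_finite K (genF_finite c p e A)
  set M := (Submodule.span K (genF K c p e A)).map (shiftMap K c i j)
  have hM : Module.finrank K M ≤ bR K c p e A := Submodule.finrank_map_le _ _
  refine le_trans ?_ hM
  have hfin := genF_finite (K := K) (n := n) c p e (shFam K c e i j A)
  have : Finite (genF K c p e (shFam K c e i j A)) := hfin.to_subtype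
  have : Module.Finite K M := Module.Finite.map _ _
  have hex : ∀ x : genF K c p e (shFam K c e i j A), ∃ (g : (Lex (Fin n →₀ ℕ))ᵒᵈ), ∃ v ∈ M,
      (∀ y, cwt y ≠ g → (x : CM K n) y = 0) ∧ ∀ y, cwt y ≤ g → v y = (x : CM K n) y := by
    rintro ⟨x, ⟨T, a, hT, ha, rfl⟩ | ⟨S, a, hS, ha, rfl⟩⟩
    · obtain ⟨v, hv, hv'⟩ := lift_unit (p := p) hij hA hT ha
      have haP := ((shFam_props hij hA).1 a ha).2
      refine ⟨cwt (T, a), v, hv, fun y hy => ?_, fun y hy => ?_⟩
      · show one K c T a y = 0
        rw [one_of_not T haP]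
        exact Finsupp.single_eq_of_ne fun h => hy (congrArg cwt h)
      · show v y = one K c T a y
        rw [one_of_not T haP]
        exact hv' y hy
    · exact ⟨cwt (S, a), dd K c (one K c S a), src_mem hij A (a j) S a rfl hS ha,
        dd_one_homog S a, fun y _ => rfl⟩
  choose g v hv hw hlead using hex
  have h := lead_le (K := K) (ι := Finset (Fin n) × (Fin n →₀ ℕ)) cwt g
    (fun x => (x : CM K n)) v hw hlead M
  refine le_trans (le_of_eq ?_) (h hv)
  rw [bR, Subtype.range_coe_subtype]
  rfl

theorem card_filter_le_split (B : Finset (Fin n →₀ ℕ)) (x : Fin n →₀ ℕ) :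
    (B.filter fun a => toLex x ≤ toLex a).card =
      (B.filter fun a => toLex x < toLex a).card + if x ∈ B then 1 else 0 := by
  classical
  have e2 : (B.filter fun a => a = x).card = if x ∈ B then 1 else 0 := by
    rw [Finset.filter_eq']
    split_ifs <;> simp
  rw [← e2, ← Finset.card_union_of_disjoint]
  · congr 1
    ext a
    have : toLex x ≤ toLex a ↔ toLex x < toLex a ∨ a = x := by
      rw [le_iff_lt_or_eq]
      exact or_congr_right ⟨fun h => (toLex.injective h).symm, fun h => h ▸ rfl⟩
    simp only [Finset.mem_filter, Finset.mem_union, this, and_or_left]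
  · refine Finset.disjoint_left.2 fun a h1 h2 => ?_
    simp only [Finset.mem_filter] at h1 h2
    obtain ⟨-, rfl⟩ := h2
    exact lt_irrefl _ h1.2

theorem card_gt_eq {e : ℕ} {A B : Finset (Fin n →₀ ℕ)} (hA : ∀ a ∈ A, a.degree = e)
    (hB : ∀ a ∈ B, a.degree = e)
    (heq : ∀ x ∈ Vale.Agent.P200.degSet n e, (A.filter fun a => toLex x ≤ toLex a).card =
      (B.filter fun a => toLex x ≤ toLex a).card) (x : Fin n →₀ ℕ) :
    (A.filter fun a => toLex x < toLex a).card = (B.filter fun a => toLex x < toLex a).card := by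
  classical
  rcases (((Vale.Agent.P200.degSet n e).filter fun a => toLex x < toLex a)).eq_empty_or_nonempty
    with h | h
  · have hall : ∀ C : Finset (Fin n →₀ ℕ), (∀ a ∈ C, a.degree = e) →
        (C.filter fun a => toLex x < toLex a).card = 0 := by
      intro C hC
      rw [Finset.card_eq_zero, Finset.filter_eq_empty_iff]
      intro a ha hlt
      exact Finset.filter_eq_empty_iff.1 h (Vale.Agent.P200.mem_degSet.2 (hC a ha)) hlt
    rw [hall A hA, hall B hB]
  · obtain ⟨y, hy, hmin⟩ := Finset.exists_min_image _ (fun a => toLex a) h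
    obtain ⟨hyd, hxy⟩ := Finset.mem_filter.1 hy
    have e1 : ∀ C : Finset (Fin n →₀ ℕ), (∀ a ∈ C, a.degree = e) →
        C.filter (fun a => toLex x < toLex a) = C.filter (fun a => toLex y ≤ toLex a) := by
      intro C hC
      refine Finset.filter_congr fun a ha => ⟨fun h => hmin a (Finset.mem_filter.2
        ⟨Vale.Agent.P200.mem_degSet.2 (hC a ha), h⟩), fun h => hxy.trans_le h⟩
    rw [e1 A hA, e1 B hB]
    exact heq y hyd

theorem above_shFam_lt (hij : i < j) {e : ℕ} {A : Finset (Fin n →₀ ℕ)}
    (hA : ∀ a ∈ A, a.degree = e ∧ ¬ sqP c a) {a0 : Fin n →₀ ℕ} (ha0 : a0 ∈ A) (h0 : 0 < a0 j)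
    (hP : ¬ sqP c (shx i j a0)) (hnew : shx i j a0 ∉ A) :
    above e A < above e (shFam K c e i j A) := by
  classical
  have hge : ∀ x : Fin n →₀ ℕ, (A.filter fun a => toLex x ≤ toLex a).card ≤
      ((shFam K c e i j A).filter fun a => toLex x ≤ toLex a).card := by
    intro x
    rw [← finrank_shSpan (K := K) hij _ (fun a ha => hA a (Finset.filter_subset _ A ha)),
      ← ncard_piv (rwt_injective e), ← Set.ncard_coe_finset]
    refine Set.ncard_le_ncard_of_injOn (fun y => y.1) ?_ Subtype.val_injective.injOn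
      (Finset.finite_toSet _)
    rintro y ⟨u, hu, hy, hlow⟩
    simp only [Finset.coe_filter, Set.mem_ofPred_eq]
    refine ⟨mem_shFam.2 ⟨y.2, u, Submodule.span_mono (by
      rintro _ ⟨⟨b, hb⟩, rfl⟩; exact ⟨⟨b, Finset.filter_subset _ A hb⟩, rfl⟩) hu, hy, hlow⟩, ?_⟩
    by_contra hlt
    apply hy
    clear hy hlow
    induction hu using Submodule.span_induction with
    | mem v hv =>
      obtain ⟨⟨b, hb⟩, rfl⟩ := hv
      by_contra h
      exact hlt ((Finset.mem_filter.1 hb).2.trans (toLex_le_of_pvec hij h))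
    | zero => rfl
    | add x z _ _ hx hz => simp [hx, hz]
    | smul r x _ hx => simp [hx]
  have hd : (shx i j a0).degree = e := by rw [shx_degree h0]; exact (hA a0 ha0).1
  have hin : shx i j a0 ∈ shFam K c e i j A := by
    refine mem_shFam.2 ⟨hd, pvec K c e i j a0, Submodule.subset_span ⟨⟨a0, ha0⟩, rfl⟩, ?_, ?_⟩
    · unfold pvec evec
      rw [if_pos h0, if_neg (fun h => (lt_shx hij h0).ne (congrArg toLex h.1).symm), zero_add,
        if_pos ⟨rfl, hP⟩]
      exact one_ne_zero
    · intro y hy
      have hy' : toLex (shx i j a0) < toLex y.1 := OrderDual.toDual_lt_toDual.1 hy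
      unfold pvec evec
      rw [if_pos h0, if_neg (fun h => ((lt_shx hij h0).trans hy').ne (congrArg toLex h.1).symm),
        if_neg (fun h => hy'.ne (congrArg toLex h.1).symm), add_zero]
  by_contra hle
  push Not at hle
  have heq := (Finset.sum_eq_sum_iff_of_le (s := Vale.Agent.P200.degSet n e) fun x _ => hge x).1
    (le_antisymm (Finset.sum_le_sum fun x _ => hge x) hle)
  have h1 := heq _ (Vale.Agent.P200.mem_degSet.2 hd)
  rw [card_filter_le_split, card_filter_le_split,
    card_gt_eq (fun a ha => (hA a ha).1) (fun a ha => ((shFam_props hij hA).1 a ha).1) heq,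
    if_neg hnew, if_pos hin] at h1
  omega

theorem exists_shift (p e : ℕ) (A : Finset (Fin n →₀ ℕ))
    (hA : ∀ a ∈ A, a.degree = e ∧ ¬ sqP c a) (hns : ¬ StabF c A) :
    ∃ A' : Finset (Fin n →₀ ℕ), (∀ a ∈ A', a.degree = e ∧ ¬ sqP c a) ∧ A'.card = A.card ∧
      bR K c p e A' ≤ bR K c p e A ∧ above e A < above e A' := by
  simp only [StabF, not_forall] at hns
  obtain ⟨a0, ha0, i, j, hij, b0, hb, hb0P, hb0⟩ := hns
  have ha0j : 0 < a0 j := by
    have := DFunLike.congr_fun hb j
    simp [hij.ne'] at this
    omega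
  obtain rfl : b0 = shx i j a0 := add_right_cancel (hb.trans (shx_add ha0j).symm)
  exact ⟨shFam K c e i j A, (shFam_props hij hA).1, (shFam_props hij hA).2,
    bR_shFam_le hij p e hA, above_shFam_lt hij hA ha0 ha0j hb0P hb0⟩

/-- Some stable family of the same size has a boundary rank which is not larger. -/
theorem exists_stable (p e : ℕ) (A : Finset (Fin n →₀ ℕ))
    (hA : ∀ a ∈ A, a.degree = e ∧ ¬ sqP c a) :
    ∃ B : Finset (Fin n →₀ ℕ), (∀ a ∈ B, a.degree = e ∧ ¬ sqP c a) ∧ B.card = A.card ∧
      bR K c p e B ≤ bR K c p e A ∧ StabF c B := by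
  classical
  let cand := ((Vale.Agent.P200.degSet n e).filter fun a => ¬ sqP c a).powerset.filter
    fun B => B.card = A.card ∧ bR K c p e B ≤ bR K c p e A
  obtain ⟨B, hB, hmax⟩ := cand.exists_max_image (above e) ⟨A, by
    simp only [cand, Finset.mem_filter, Finset.mem_powerset]
    exact ⟨fun a ha => Finset.mem_filter.2 ⟨Vale.Agent.P200.mem_degSet.2 (hA a ha).1, (hA a ha).2⟩,
      trivial, le_rfl⟩⟩
  simp only [cand, Finset.mem_filter, Finset.mem_powerset] at hB hmax
  obtain ⟨hBs, hBc, hBr⟩ := hB
  have hBA : ∀ a ∈ B, a.degree = e ∧ ¬ sqP c a := fun a ha => by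
    have := Finset.mem_filter.1 (hBs ha)
    exact ⟨Vale.Agent.P200.mem_degSet.1 this.1, this.2⟩
  refine ⟨B, hBA, hBc, hBr, ?_⟩
  by_contra hns
  obtain ⟨B', h1, h2, h3, h4⟩ := exists_shift (K := K) p e B hBA hns
  exact absurd (hmax B' ⟨fun a ha => Finset.mem_filter.2
    ⟨Vale.Agent.P200.mem_degSet.2 (h1 a ha).1, (h1 a ha).2⟩, h2.trans hBc, h3.trans hBr⟩)
    (not_le.2 h4)

end Vale.Agent.P200c
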